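import Vale.Agent.Lib.P070.X.Base

/-!
# P070, part X, case A: germs linked neither to `t` nor to `v`
-/

open Filter Topology

namespace P070

section

variable {B : Type} [CStarAlgebra B] {C : StarSubalgebra ℂ B} {t v : Germ B} {u : B}

/-- Every element of `gen C u` is approximated on the left of `s.p n` by elements of `C`.
Proof: apply `X.gen_subset` to `L = {x | ∀ ε > 0, ∃ x' ∈ C, ∃ N, ∀ n ≥ N, ‖s.p n * (x - x')‖ ≤ ε}`.
Right multiplication by `u`: take `x' * uN t v M` with
`s.p n * (x * u - x' * uN t v M) = s.p n * (x - x') * u + s.p n * x' * v.p M * u`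
(`Step.sub_uN`), and `‖s.p n * x' * v.p M‖` is small by `X.small_of_not_link` (for `¬ Link C v s`,
which follows from `h2` by `Link.symm`).  Right multiplication by `star u`: take
`x' * star (uN t v M)`, `Step.star_sub_uN`. -/
theorem approxA (S : Step C t v u) {s : Germ B} (hs : s.In C)
    (h1 : ¬ Link C s t) (h2 : ¬ Link C s v) {x : B} (hx : x ∈ gen C u) :
    ∀ ε > (0 : ℝ), ∃ x' ∈ C, ∃ N : ℕ, ∀ n ≥ N, ‖s.p n * (x - x')‖ ≤ ε := by
  have h1' : ¬ Link C t s := fun h => h1 h.symm
  have h2' : ¬ Link C v s := fun h => h2 h.symm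
  refine X.gen_subset (C := C) (u := u)
    (L := {x : B | ∀ ε > (0 : ℝ), ∃ x' ∈ C, ∃ N : ℕ, ∀ n ≥ N, ‖s.p n * (x - x')‖ ≤ ε})
    ?_ ?_ ?_ ?_ ?_ ?_ x hx
  · -- closed
    rw [← closure_subset_iff_isClosed]
    intro y hy ε hε
    obtain ⟨z, hz, hyz⟩ := Metric.mem_closure_iff.1 hy (ε / 2) (by positivity)
    obtain ⟨z', hz', N, hN⟩ := hz (ε / 2) (by positivity)
    refine ⟨z', hz', N, fun n hn => ?_⟩
    have e : s.p n * (y - z') = s.p n * (y - z) + s.p n * (z - z') := by
      rw [← mul_add]
      congr 1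
      abel
    rw [e]
    refine (norm_add_le _ _).trans ?_
    have h3 := X.norm_p_mul_le s (y - z) n
    have h4 := hN n hn
    rw [dist_eq_norm] at hyz
    linarith
  · intro ε hε
    refine ⟨1, one_mem C, 0, fun n _ => ?_⟩
    rw [sub_self, mul_zero, norm_zero]
    exact hε.le
  · intro y hy z hz ε hε
    obtain ⟨y', hy', N, hN⟩ := hy (ε / 2) (by positivity)
    obtain ⟨z', hz', N', hN'⟩ := hz (ε / 2) (by positivity)
    refine ⟨y' + z', add_mem hy' hz', max N N', fun n hn => ?_⟩
    have e : s.p n * (y + z - (y' + z')) = s.p n * (y - y') + s.p n * (z - z') := by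
      rw [← mul_add]
      congr 1
      abel
    rw [e]
    refine (norm_add_le _ _).trans ?_
    have h3 := hN n ((le_max_left _ _).trans hn)
    have h4 := hN' n ((le_max_right _ _).trans hn)
    linarith
  · intro y hy c hc ε hε
    obtain ⟨y', hy', N, hN⟩ := hy (ε / (‖c‖ + 1)) (by positivity)
    refine ⟨y' * c, mul_mem hy' hc, N, fun n hn => ?_⟩
    have e : s.p n * (y * c - y' * c) = s.p n * (y - y') * c := by
      rw [mul_assoc, sub_mul]
    rw [e]
    refine (norm_mul_le _ _).trans ?_
    calc ‖s.p n * (y - y')‖ * ‖c‖ ≤ ε / (‖c‖ + 1) * ‖c‖ := by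
          gcongr
          exact hN n hn
      _ ≤ ε / (‖c‖ + 1) * (‖c‖ + 1) := by
          gcongr
          linarith
      _ = ε := by field_simp
  · intro y hy ε hε
    obtain ⟨y', hy', N, hN⟩ := hy (ε / 2) (by positivity)
    obtain ⟨M, hM⟩ := X.small_of_not_link h2' hy' (ε := ε / 2) (by positivity)
    refine ⟨y' * Step.uN t v M, mul_mem hy' (S.uN_mem M), max N M, fun n hn => ?_⟩
    have e : s.p n * (y * u - y' * Step.uN t v M) =
        s.p n * (y - y') * u + s.p n * y' * v.p M * u := by
      have e1 : y * u - y' * Step.uN t v M = (y - y') * u + y' * (v.p M * u) := by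
        rw [← S.sub_uN M, sub_mul, mul_sub]
        abel
      rw [e1, mul_add]
      simp only [mul_assoc]
    rw [e]
    refine (norm_add_le _ _).trans ?_
    have h3 := S.norm_mul_u_le (s.p n * (y - y'))
    have h4 := S.norm_mul_u_le (s.p n * y' * v.p M)
    have h5 := hN n ((le_max_left _ _).trans hn)
    have h6 := hM n ((le_max_right _ _).trans hn) M le_rfl
    linarith
  · intro y hy ε hε
    obtain ⟨y', hy', N, hN⟩ := hy (ε / 2) (by positivity)
    obtain ⟨M, hM⟩ := X.small_of_not_link h1' hy' (ε := ε / 2) (by positivity)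
    refine ⟨y' * star (Step.uN t v M), mul_mem hy' (star_mem (S.uN_mem M)), max N M,
      fun n hn => ?_⟩
    have e : s.p n * (y * star u - y' * star (Step.uN t v M)) =
        s.p n * (y - y') * star u + s.p n * y' * t.p M * star u := by
      have e1 : y * star u - y' * star (Step.uN t v M) =
          (y - y') * star u + y' * (t.p M * star u) := by
        rw [← S.star_sub_uN M, sub_mul, mul_sub]
        abel
      rw [e1, mul_add]
      simp only [mul_assoc]
    rw [e]
    refine (norm_add_le _ _).trans ?_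
    have h3 := S.norm_mul_star_u_le (s.p n * (y - y'))
    have h4 := S.norm_mul_star_u_le (s.p n * y' * t.p M)
    have h5 := hN n ((le_max_left _ _).trans hn)
    have h6 := hM n ((le_max_right _ _).trans hn) M le_rfl
    linarith

/-- from `approxA`, `X.scalar` and `X.exists_scalar` -/
theorem stepA_rigid (S : Step C t v u) {s : Germ B} (hs : s.In C) (hR : Rigid C s)
    (h1 : ¬ Link C s t) (h2 : ¬ Link C s v) : Rigid (gen C u) s := by
  intro x hx
  refine X.exists_scalar s x fun ε hε => ?_
  obtain ⟨x', hx', N, hN⟩ := approxA S hs h1 h2 hx (ε / 2) (by positivity)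
  obtain ⟨c, hc⟩ := X.scalar hR hx'
  obtain ⟨N', hN'⟩ := hc (ε / 2) (by positivity)
  refine ⟨c, max N N', fun n hn => ?_⟩
  have e : s.p n * x * s.p n - c • s.p n =
      s.p n * (x - x') * s.p n + (s.p n * x' * s.p n - c • s.p n) := by
    rw [mul_sub, sub_mul]
    abel
  rw [e]
  refine (norm_add_le _ _).trans ?_
  have h3 := X.norm_mul_p_le s (s.p n * (x - x')) n
  have h4 := hN n ((le_max_left _ _).trans hn)
  have h5 := hN' n ((le_max_right _ _).trans hn)
  linarith

/-- from `approxA` (work with `¬ Link (gen C u) s' s`: `‖s.p n * a * s'.p m‖`) -/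
theorem stepA_link (S : Step C t v u) {s s' : Germ B} (hs : s.In C)
    (h1 : ¬ Link C s t) (h2 : ¬ Link C s v) (h3 : ¬ Link C s s') : ¬ Link (gen C u) s s' := by
  intro hl
  obtain ⟨a, ha, δ, hδ, H⟩ := hl.symm
  obtain ⟨a', ha', N, hN⟩ := approxA S hs h1 h2 ha (δ / 3) (by positivity)
  have h3' : ¬ Link C s' s := fun h => h3 h.symm
  obtain ⟨M, hM⟩ := X.small_of_not_link h3' ha' (ε := δ / 3) (by positivity)
  have h4 := H (max N M) (max N M)
  have h5 := hN (max N M) (le_max_left _ _)
  have h6 := hM (max N M) (le_max_right _ _) (max N M) (le_max_right _ _)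
  have e : s.p (max N M) * a * s'.p (max N M) =
      s.p (max N M) * (a - a') * s'.p (max N M) + s.p (max N M) * a' * s'.p (max N M) := by
    rw [mul_sub, sub_mul]
    abel
  rw [e] at h4
  have h7 := norm_add_le (s.p (max N M) * (a - a') * s'.p (max N M))
    (s.p (max N M) * a' * s'.p (max N M))
  have h8 := X.norm_mul_p_le s' (s.p (max N M) * (a - a')) (max N M)
  linarith

end

end P070
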