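import Vale.Agent.Lib.P070.BasicA

/-!
# P070, part X: basic lemmas (on top of `BasicA`) and the general principle (G)

All names are in the namespaces `P070.X` and `P070.Step`.
-/

open Filter Topology

namespace P070

section

variable {B : Type} [CStarAlgebra B]

namespace X

variable (g : Germ B)

theorem p_idem (n : ℕ) : g.p n * g.p n = g.p n := g.p_mul_p_of_le le_rfl

theorem norm_p_mul_le (x : B) (n : ℕ) : ‖g.p n * x‖ ≤ ‖x‖ :=
  (norm_mul_le _ _).trans (by
    calc ‖g.p n‖ * ‖x‖ ≤ 1 * ‖x‖ := by gcongr; exact g.norm_p_le n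
      _ = ‖x‖ := one_mul _)

theorem norm_mul_p_le (x : B) (n : ℕ) : ‖x * g.p n‖ ≤ ‖x‖ :=
  (norm_mul_le _ _).trans (by
    calc ‖x‖ * ‖g.p n‖ ≤ ‖x‖ * 1 := by gcongr; exact g.norm_p_le n
      _ = ‖x‖ := mul_one _)

/-- approximate scalars give an exact scalar (no nontriviality assumption) -/
theorem exists_scalar (x : B)
    (h : ∀ ε > (0 : ℝ), ∃ c : ℂ, ∃ N : ℕ, ∀ n ≥ N, ‖g.p n * x * g.p n - c • g.p n‖ ≤ ε) :
    ∃ c : ℂ, Tendsto (fun n => ‖g.p n * x * g.p n - c • g.p n‖) atTop (𝓝 0) := by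
  rcases subsingleton_or_nontrivial B with hB | hB
  · refine ⟨0, ?_⟩
    have : (fun n => ‖g.p n * x * g.p n - (0 : ℂ) • g.p n‖) = fun _ => (0 : ℝ) := by
      funext n
      rw [Subsingleton.elim (g.p n * x * g.p n - (0 : ℂ) • g.p n) 0, norm_zero]
    rw [this]
    exact tendsto_const_nhds
  · exact exists_scalar_of_approx g x fun ε hε => h ε hε

/-- if `p_N x p_N` is close to `c p_N` then so is `p_n x p_N` to `c p_n` for `n ≥ N` -/
theorem norm_pn_x_pN_le (x : B) (c : ℂ) {N n : ℕ} (h : N ≤ n) :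
    ‖g.p n * x * g.p N - c • g.p n‖ ≤ ‖g.p N * x * g.p N - c • g.p N‖ := by
  have e : g.p n * x * g.p N - c • g.p n = g.p n * (g.p N * x * g.p N - c • g.p N) := by
    rw [mul_sub, ← mul_assoc, ← mul_assoc, g.p_mul_p_of_le h, mul_smul_comm, g.p_mul_p_of_le h]
  rw [e]
  exact norm_p_mul_le g _ _

/-- `ε`-`N` form of rigidity -/
theorem scalar {C : StarSubalgebra ℂ B} {g : Germ B} (hR : Rigid C g) {x : B} (hx : x ∈ C) :
    ∃ c : ℂ, ∀ ε > (0 : ℝ), ∃ N : ℕ, ∀ n ≥ N, ‖g.p n * x * g.p n - c • g.p n‖ ≤ ε := by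
  obtain ⟨c, hc⟩ := hR x hx
  refine ⟨c, fun ε hε => ?_⟩
  obtain ⟨N, hN⟩ := (Metric.tendsto_atTop.1 hc) ε hε
  refine ⟨N, fun n hn => ?_⟩
  have := hN n hn
  rw [Real.dist_eq, sub_zero, abs_of_nonneg (norm_nonneg _)] at this
  exact this.le

/-- not linked: `‖h.p n * a * g.p m‖` is eventually small -/
theorem small_of_not_link {C : StarSubalgebra ℂ B} {g h : Germ B} (hl : ¬ Link C g h) {a : B}
    (ha : a ∈ C) {ε : ℝ} (hε : 0 < ε) :
    ∃ N : ℕ, ∀ n ≥ N, ∀ m ≥ N, ‖h.p n * a * g.p m‖ ≤ ε := by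
  obtain ⟨N, hN⟩ := not_link_iff.1 hl a ha ε hε
  exact ⟨N, fun n hn m hm => hN n m hn hm⟩

/-- the general principle (G) -/
theorem gen_subset {C : StarSubalgebra ℂ B} {u : B} {L : Set B} (hcl : IsClosed L)
    (h1 : (1 : B) ∈ L) (hadd : ∀ x ∈ L, ∀ y ∈ L, x + y ∈ L) (hC : ∀ x ∈ L, ∀ c ∈ C, x * c ∈ L)
    (hu : ∀ x ∈ L, x * u ∈ L) (hus : ∀ x ∈ L, x * star u ∈ L) : ∀ x ∈ gen C u, x ∈ L := by
  have key : ∀ x ∈ (StarAlgebra.adjoin ℂ ((C : Set B) ∪ {u})), ∀ y ∈ L, y * x ∈ L := by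
    intro x hx
    have hx' : x ∈ Algebra.adjoin ℂ (((C : Set B) ∪ {u}) ∪ star ((C : Set B) ∪ {u})) := by
      rw [← StarAlgebra.adjoin_toSubalgebra]
      exact hx
    refine Algebra.adjoin_induction (p := fun z _ => ∀ y ∈ L, y * z ∈ L) ?_ ?_ ?_ ?_ hx'
    · intro z hz y hy
      rcases hz with (hz | hz) | hz
      · exact hC y hy z hz
      · rw [Set.mem_singleton_iff] at hz
        rw [hz]
        exact hu y hy
      · rw [Set.mem_star] at hz
        rcases hz with hz | hz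
        · have : z ∈ C := by
            have h := star_mem (s := C) hz
            rwa [star_star] at h
          exact hC y hy z this
        · rw [Set.mem_singleton_iff] at hz
          have : z = star u := by rw [← hz, star_star]
          rw [this]
          exact hus y hy
    · intro r y hy
      exact hC y hy _ (C.algebraMap_mem r)
    · intro a b _ _ ha hb y hy
      rw [mul_add]
      exact hadd _ (ha y hy) _ (hb y hy)
    · intro a b _ _ ha hb y hy
      rw [← mul_assoc]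
      exact hb _ (ha y hy)
  intro x hx
  have hsub : ((StarAlgebra.adjoin ℂ ((C : Set B) ∪ {u}) : StarSubalgebra ℂ B) : Set B) ⊆ L := by
    intro z hz
    have := key z hz 1 h1
    rwa [one_mul] at this
  have hx' : x ∈ closure ((StarAlgebra.adjoin ℂ ((C : Set B) ∪ {u}) : StarSubalgebra ℂ B) : Set B) :=
    hx
  exact (closure_minimal hsub hcl) hx'

theorem le_gen (C : StarSubalgebra ℂ B) (u : B) : C ≤ gen C u := by
  intro x hx
  exact (StarSubalgebra.le_topologicalClosure _)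
    (StarAlgebra.subset_adjoin ℂ _ (Or.inl hx))

theorem mem_gen (C : StarSubalgebra ℂ B) (u : B) : u ∈ gen C u :=
  (StarSubalgebra.le_topologicalClosure _)
    (StarAlgebra.subset_adjoin ℂ _ (Or.inr rfl))

end X

namespace Step

variable {C : StarSubalgebra ℂ B} {t v : Germ B} {u : B} (S : Step C t v u)

/-- the partial sums `u_N = ∑_{k<N} v_k t_k^*` -/
def uN (t v : Germ B) (N : ℕ) : B := ∑ k ∈ Finset.range N, v.t k * star (t.t k)

include S

theorem uN_mem (N : ℕ) : uN t v N ∈ C :=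
  sum_mem fun k _ => mul_mem (S.vIn k) (star_mem (S.tIn k))

theorem u_mul_p (N : ℕ) : u * t.p N = u - uN t v N := by
  rw [Germ.p, mul_sub, mul_one, Finset.mul_sum, uN]
  congr 1
  refine Finset.sum_congr rfl fun k _ => ?_
  rw [← mul_assoc, S.ut]

theorem u_star_mul : u * star u = 1 := (Unitary.mem_iff.1 S.unit).2

theorem star_u_mul : star u * u = 1 := (Unitary.mem_iff.1 S.unit).1

theorem star_v (k : ℕ) : star (t.t k) * star u = star (v.t k) := by
  rw [← star_mul, S.ut]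

theorem p_mul_u (N : ℕ) : v.p N * u = u * t.p N := by
  rw [Germ.p, Germ.p, sub_mul, one_mul, mul_sub, mul_one, Finset.sum_mul, Finset.mul_sum]
  congr 1
  refine Finset.sum_congr rfl fun k _ => ?_
  rw [← mul_assoc u, S.ut, ← S.star_v k, mul_assoc, mul_assoc, S.star_u_mul, mul_one]

theorem sub_uN (N : ℕ) : u - uN t v N = v.p N * u := by
  rw [S.p_mul_u, S.u_mul_p]

theorem star_u_mul_p (N : ℕ) : star u * v.p N = t.p N * star u := by
  have := congrArg star (S.p_mul_u N)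
  rwa [star_mul, star_mul, Germ.star_p, Germ.star_p] at this

theorem star_sub_uN (N : ℕ) : star u - star (uN t v N) = t.p N * star u := by
  rw [← S.star_u_mul_p, ← star_sub, S.sub_uN, star_mul, Germ.star_p]

/-- `v.p n = u t.p n u^*` -/
theorem vp_eq (n : ℕ) : v.p n = u * t.p n * star u := by
  rw [← S.p_mul_u, mul_assoc, S.u_star_mul, mul_one]

theorem norm_u_le : ‖u‖ ≤ 1 := by
  rcases subsingleton_or_nontrivial B with hB | hB
  · rw [Subsingleton.elim u 0, norm_zero]; exact zero_le_one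
  · exact (CStarRing.norm_of_mem_unitary S.unit).le

theorem norm_mul_u_le (x : B) : ‖x * u‖ ≤ ‖x‖ :=
  (norm_mul_le _ _).trans (by
    calc ‖x‖ * ‖u‖ ≤ ‖x‖ * 1 := by gcongr; exact S.norm_u_le
      _ = ‖x‖ := mul_one _)

theorem norm_mul_star_u_le (x : B) : ‖x * star u‖ ≤ ‖x‖ :=
  (norm_mul_le _ _).trans (by
    calc ‖x‖ * ‖star u‖ ≤ ‖x‖ * 1 := by gcongr; rw [norm_star]; exact S.norm_u_le
      _ = ‖x‖ := mul_one _)

theorem norm_star_u_mul_le (x : B) : ‖star u * x‖ ≤ ‖x‖ :=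
  (norm_mul_le _ _).trans (by
    calc ‖star u‖ * ‖x‖ ≤ 1 * ‖x‖ := by gcongr; rw [norm_star]; exact S.norm_u_le
      _ = ‖x‖ := one_mul _)

end Step

end

end P070
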