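import Vale.Agent.Lib.P070.X.Base

/-!
# P070, part X, cases B and C: `t` and `v` stay rigid
-/

open Filter Topology

namespace P070

section

variable {B : Type} [CStarAlgebra B] {C : StarSubalgebra ℂ B} {t v : Germ B} {u : B}

private theorem bt_mul_u (S : Step C t v u) {x : B}
    (hx : ∀ ε > (0 : ℝ), ∃ x' ∈ C, ∃ x'' ∈ C, ∃ N : ℕ, ∀ n ≥ N,
      ‖t.p n * (x - x' - star u * x'')‖ ≤ ε) :
    ∀ ε > (0 : ℝ), ∃ x' ∈ C, ∃ x'' ∈ C, ∃ N : ℕ, ∀ n ≥ N,
      ‖t.p n * (x * u - x' - star u * x'')‖ ≤ ε := by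
  intro ε hε
  obtain ⟨x', hx', x'', hx'', N, hN⟩ := hx (ε / 3) (by positivity)
  have hnl : ¬ Link C v t := fun h => S.nl h.symm
  obtain ⟨N1, hN1⟩ := X.small_of_not_link hnl hx' (show 0 < ε / 3 by positivity)
  obtain ⟨c, hc⟩ := X.scalar S.vR hx''
  obtain ⟨N2, hN2⟩ := hc (ε / 3) (by positivity)
  refine ⟨x' * Step.uN t v (max N1 N2) + algebraMap ℂ B c,
    add_mem (mul_mem hx' (S.uN_mem _)) (C.algebraMap_mem c),
    x'' * Step.uN t v (max N1 N2), mul_mem hx'' (S.uN_mem _), max N (max N1 N2), ?_⟩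
  intro n hn
  set M := max N1 N2 with hM
  have hnN : N ≤ n := (le_max_left _ _).trans hn
  have hnM : M ≤ n := (le_max_right _ _).trans hn
  have hu : Step.uN t v M = u - v.p M * u := by rw [← S.sub_uN M]; abel
  have hpn : t.p n * star u = star u * v.p n := (S.star_u_mul_p n).symm
  have hpu : star u * v.p n * u = t.p n := by
    rw [← hpn, mul_assoc, S.star_u_mul, mul_one]
  have key : t.p n * (x * u - (x' * Step.uN t v M + algebraMap ℂ B c) -
      star u * (x'' * Step.uN t v M)) =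
      t.p n * (x - x' - star u * x'') * u + t.p n * x' * v.p M * u +
        star u * (v.p n * x'' * v.p M - c • v.p n) * u := by
    have e1 : star u * (v.p n * x'' * v.p M - c • v.p n) * u =
        t.p n * star u * x'' * v.p M * u - c • t.p n := by
      rw [mul_sub, sub_mul, mul_smul_comm, smul_mul_assoc, hpu, hpn]
      simp only [mul_assoc]
    rw [e1, hu, Algebra.algebraMap_eq_smul_one]
    simp only [mul_sub, sub_mul, mul_add, mul_smul_comm, mul_one, mul_assoc]
    abel
  rw [key]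
  have b1 : ‖t.p n * (x - x' - star u * x'') * u‖ ≤ ε / 3 :=
    (S.norm_mul_u_le _).trans (hN n hnN)
  have b2 : ‖t.p n * x' * v.p M * u‖ ≤ ε / 3 :=
    (S.norm_mul_u_le _).trans (hN1 n ((le_max_left _ _).trans hnM) M (le_max_left _ _))
  have b3 : ‖star u * (v.p n * x'' * v.p M - c • v.p n) * u‖ ≤ ε / 3 :=
    (S.norm_mul_u_le _).trans ((S.norm_star_u_mul_le _).trans
      ((X.norm_pn_x_pN_le v x'' c hnM).trans (hN2 M (le_max_right _ _))))
  have b4 := norm_add₃_le (a := t.p n * (x - x' - star u * x'') * u)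
    (b := t.p n * x' * v.p M * u) (c := star u * (v.p n * x'' * v.p M - c • v.p n) * u)
  linarith

private theorem bt_mul_star_u (S : Step C t v u) {x : B}
    (hx : ∀ ε > (0 : ℝ), ∃ x' ∈ C, ∃ x'' ∈ C, ∃ N : ℕ, ∀ n ≥ N,
      ‖t.p n * (x - x' - star u * x'')‖ ≤ ε) :
    ∀ ε > (0 : ℝ), ∃ x' ∈ C, ∃ x'' ∈ C, ∃ N : ℕ, ∀ n ≥ N,
      ‖t.p n * (x * star u - x' - star u * x'')‖ ≤ ε := by
  intro ε hε
  obtain ⟨x', hx', x'', hx'', N, hN⟩ := hx (ε / 3) (by positivity)
  obtain ⟨N1, hN1⟩ := X.small_of_not_link S.nl hx'' (show 0 < ε / 3 by positivity)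
  obtain ⟨c, hc⟩ := X.scalar S.tR hx'
  obtain ⟨N2, hN2⟩ := hc (ε / 3) (by positivity)
  refine ⟨x' * star (Step.uN t v (max N1 N2)), mul_mem hx' (star_mem (S.uN_mem _)),
    algebraMap ℂ B c + x'' * star (Step.uN t v (max N1 N2)),
    add_mem (C.algebraMap_mem c) (mul_mem hx'' (star_mem (S.uN_mem _))), max N (max N1 N2), ?_⟩
  intro n hn
  set M := max N1 N2 with hM
  have hnN : N ≤ n := (le_max_left _ _).trans hn
  have hnM : M ≤ n := (le_max_right _ _).trans hn
  have hu : star (Step.uN t v M) = star u - t.p M * star u := by rw [← S.star_sub_uN M]; abel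
  have hpn : t.p n * star u = star u * v.p n := (S.star_u_mul_p n).symm
  have key : t.p n * (x * star u - x' * star (Step.uN t v M) -
      star u * (algebraMap ℂ B c + x'' * star (Step.uN t v M))) =
      t.p n * (x - x' - star u * x'') * star u +
        (t.p n * x' * t.p M - c • t.p n) * star u +
        star u * (v.p n * x'' * t.p M) * star u := by
    have e1 : star u * (v.p n * x'' * t.p M) * star u =
        t.p n * star u * x'' * t.p M * star u := by
      rw [hpn]
      simp only [mul_assoc]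
    rw [e1, hu, Algebra.algebraMap_eq_smul_one]
    simp only [mul_sub, sub_mul, mul_add, mul_smul_comm, smul_mul_assoc, mul_one, mul_assoc]
    abel
  rw [key]
  have b1 : ‖t.p n * (x - x' - star u * x'') * star u‖ ≤ ε / 3 :=
    (S.norm_mul_star_u_le _).trans (hN n hnN)
  have b2 : ‖(t.p n * x' * t.p M - c • t.p n) * star u‖ ≤ ε / 3 :=
    (S.norm_mul_star_u_le _).trans ((X.norm_pn_x_pN_le t x' c hnM).trans
      (hN2 M (le_max_right _ _)))
  have b3 : ‖star u * (v.p n * x'' * t.p M) * star u‖ ≤ ε / 3 :=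
    (S.norm_mul_star_u_le _).trans ((S.norm_star_u_mul_le _).trans
      (hN1 n ((le_max_left _ _).trans hnM) M (le_max_left _ _)))
  have b4 := norm_add₃_le (a := t.p n * (x - x' - star u * x'') * star u)
    (b := (t.p n * x' * t.p M - c • t.p n) * star u)
    (c := star u * (v.p n * x'' * t.p M) * star u)
  linarith

/-- Apply `X.gen_subset` to
`L = {x | ∀ ε > 0, ∃ x' ∈ C, ∃ x'' ∈ C, ∃ N, ∀ n ≥ N, ‖t.p n * (x - x' - star u * x'')‖ ≤ ε}`.
Write `p n = t.p n`, `q n = v.p n`; `p n * star u = star u * q n` (`Step.star_u_mul_p`).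
Right multiplication by `star u`:
`p n x' u^* = p n x' (uN M)^* + p n x' p M u^*` and `‖p n x' p M - c p n‖` is small for `n ≥ M`,
`M` large (`X.norm_pn_x_pN_le`, `X.scalar`), so the second term is close to
`p n (u^* (c 1))`; and `p n u^* x'' u^* = u^* q n x'' (uN M)^* + u^* q n x'' p M u^*` with
`‖q n x'' p M‖` small (`X.small_of_not_link S.nl`), so it is close to `p n (u^* (x'' (uN M)^*))`.
New pair: `(x' (uN M)^*, c 1 + x'' (uN M)^*)`.
Right multiplication by `u`: `p n x' u = p n x' uN M + p n x' q M u` (second term small,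
`¬ Link C v t`), `p n u^* x'' u = u^* q n x'' uN M + u^* q n x'' q M u` and the second term is close
to `c' u^* q n u = c' p n` (`c' = v(x'')`).  New pair: `(x' uN M + c' 1, x'' uN M)`. -/
theorem approxB (S : Step C t v u) {x : B} (hx : x ∈ gen C u) :
    ∀ ε > (0 : ℝ), ∃ x' ∈ C, ∃ x'' ∈ C, ∃ N : ℕ, ∀ n ≥ N,
      ‖t.p n * (x - x' - star u * x'')‖ ≤ ε := by
  refine X.gen_subset (C := C) (u := u) (L := {x : B | ∀ ε > (0 : ℝ), ∃ x' ∈ C, ∃ x'' ∈ C,
    ∃ N : ℕ, ∀ n ≥ N, ‖t.p n * (x - x' - star u * x'')‖ ≤ ε}) ?_ ?_ ?_ ?_ ?_ ?_ x hx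
  · refine isClosed_of_closure_subset ?_
    intro x hx ε hε
    obtain ⟨y, hy, hxy⟩ := Metric.mem_closure_iff.1 hx (ε / 2) (by positivity)
    obtain ⟨x', hx', x'', hx'', N, hN⟩ := hy (ε / 2) (by positivity)
    refine ⟨x', hx', x'', hx'', N, fun n hn => ?_⟩
    have e : t.p n * (x - x' - star u * x'') =
        t.p n * (x - y) + t.p n * (y - x' - star u * x'') := by
      rw [← mul_add]
      congr 1
      abel
    rw [e]
    have b1 := X.norm_p_mul_le t (x - y) n
    rw [dist_eq_norm] at hxy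
    have b2 := hN n hn
    have b3 := norm_add_le (t.p n * (x - y)) (t.p n * (y - x' - star u * x''))
    linarith
  · intro ε hε
    refine ⟨1, one_mem C, 0, zero_mem C, 0, fun n _ => ?_⟩
    rw [sub_self, mul_zero, sub_zero, mul_zero, norm_zero]
    exact hε.le
  · intro x hx y hy ε hε
    obtain ⟨x', hx', x'', hx'', N, hN⟩ := hx (ε / 2) (by positivity)
    obtain ⟨y', hy', y'', hy'', N', hN'⟩ := hy (ε / 2) (by positivity)
    refine ⟨x' + y', add_mem hx' hy', x'' + y'', add_mem hx'' hy'', max N N', fun n hn => ?_⟩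
    have e : t.p n * (x + y - (x' + y') - star u * (x'' + y'')) =
        t.p n * (x - x' - star u * x'') + t.p n * (y - y' - star u * y'') := by
      rw [← mul_add]
      congr 1
      rw [mul_add]
      abel
    rw [e]
    have b1 := hN n ((le_max_left _ _).trans hn)
    have b2 := hN' n ((le_max_right _ _).trans hn)
    have b3 := norm_add_le (t.p n * (x - x' - star u * x'')) (t.p n * (y - y' - star u * y''))
    linarith
  · intro x hx c hc ε hε
    obtain ⟨x', hx', x'', hx'', N, hN⟩ := hx (ε / (‖c‖ + 1)) (by positivity)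
    refine ⟨x' * c, mul_mem hx' hc, x'' * c, mul_mem hx'' hc, N, fun n hn => ?_⟩
    have e : t.p n * (x * c - x' * c - star u * (x'' * c)) =
        t.p n * (x - x' - star u * x'') * c := by
      simp only [mul_sub, sub_mul, mul_assoc]
    rw [e]
    have b1 := hN n hn
    calc ‖t.p n * (x - x' - star u * x'') * c‖
        ≤ ‖t.p n * (x - x' - star u * x'')‖ * ‖c‖ := norm_mul_le _ _
      _ ≤ ε / (‖c‖ + 1) * (‖c‖ + 1) := by
          refine mul_le_mul b1 (by linarith) (norm_nonneg _) (by positivity)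
      _ = ε := div_mul_cancel₀ _ (by positivity)
  · intro x hx
    exact bt_mul_u S hx
  · intro x hx
    exact bt_mul_star_u S hx

/-- `p n x p n` is close to `p n x' p n + u^* q n x'' p n`, close to `t(x') p n` -/
theorem stepB (S : Step C t v u) : Rigid (gen C u) t := by
  intro x hx
  refine X.exists_scalar t x fun ε hε => ?_
  obtain ⟨x', hx', x'', hx'', N, hN⟩ := approxB S hx (ε / 3) (by positivity)
  obtain ⟨c, hc⟩ := X.scalar S.tR hx'
  obtain ⟨N1, hN1⟩ := hc (ε / 3) (by positivity)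
  obtain ⟨N2, hN2⟩ := X.small_of_not_link S.nl hx'' (show 0 < ε / 3 by positivity)
  refine ⟨c, max N (max N1 N2), fun n hn => ?_⟩
  have h1 : N ≤ n := (le_max_left _ _).trans hn
  have h2 : N1 ≤ n := ((le_max_left _ _).trans (le_max_right _ _)).trans hn
  have h3 : N2 ≤ n := ((le_max_right _ _).trans (le_max_right _ _)).trans hn
  have hpn : t.p n * star u = star u * v.p n := (S.star_u_mul_p n).symm
  have key : t.p n * x * t.p n - c • t.p n =
      t.p n * (x - x' - star u * x'') * t.p n + (t.p n * x' * t.p n - c • t.p n) +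
        star u * (v.p n * x'' * t.p n) := by
    have e1 : star u * (v.p n * x'' * t.p n) = t.p n * star u * x'' * t.p n := by
      rw [hpn]
      simp only [mul_assoc]
    rw [e1]
    simp only [mul_sub, sub_mul, mul_assoc]
    abel
  rw [key]
  have b1 : ‖t.p n * (x - x' - star u * x'') * t.p n‖ ≤ ε / 3 :=
    (X.norm_mul_p_le t _ n).trans (hN n h1)
  have b2 := hN1 n h2
  have b3 : ‖star u * (v.p n * x'' * t.p n)‖ ≤ ε / 3 :=
    (S.norm_star_u_mul_le _).trans (hN2 n h3 n h3)
  have b4 := norm_add₃_le (a := t.p n * (x - x' - star u * x'') * t.p n)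
    (b := t.p n * x' * t.p n - c • t.p n) (c := star u * (v.p n * x'' * t.p n))
  linarith

/-- `q n x q n = u (p n (u^* x u) p n) u^*` -/
theorem stepC (S : Step C t v u) : Rigid (gen C u) v := by
  intro x hx
  have hy : star u * x * u ∈ gen C u :=
    mul_mem (mul_mem (star_mem (X.mem_gen C u)) hx) (X.mem_gen C u)
  obtain ⟨c, hc⟩ := stepB S _ hy
  refine ⟨c, squeeze_zero (fun n => norm_nonneg _) (fun n => ?_) hc⟩
  have key : v.p n * x * v.p n - c • v.p n =
      u * (t.p n * (star u * x * u) * t.p n - c • t.p n) * star u := by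
    rw [S.vp_eq]
    simp only [mul_sub, sub_mul, mul_smul_comm, smul_mul_assoc, mul_assoc]
  rw [key]
  refine (S.norm_mul_star_u_le _).trans ((norm_mul_le _ _).trans ?_)
  calc ‖u‖ * ‖t.p n * (star u * x * u) * t.p n - c • t.p n‖
      ≤ 1 * ‖t.p n * (star u * x * u) * t.p n - c • t.p n‖ :=
        mul_le_mul_of_nonneg_right S.norm_u_le (norm_nonneg _)
    _ = _ := one_mul _

end

end P070
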