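import Vale.Agent.Lib.P070.X.Base

/-!
# P070, part X, case D: transfer of rigidity along a link
-/

open Filter Topology

namespace P070

section

variable {B : Type} [CStarAlgebra B]

namespace X

/-- contraction estimate -/
theorem D_contr {w q : B} {κ : ℝ} (hκ : 0 < κ) (hw : ‖w‖ ^ 2 ≤ κ) (hq : star q = q)
    (hqq : q * q = q) :
    ‖(1 - κ⁻¹ • (star w * w)) * q‖ ^ 2 ≤ ‖q - κ⁻¹ • (q * (star w * w) * q)‖ := by
  let _ := CStarAlgebra.spectralOrder B
  let _ := CStarAlgebra.spectralOrderedRing B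
  set e : B := κ⁻¹ • (star w * w) with he
  have hes : star e = e := by rw [he, star_smul, star_mul, star_star]; simp
  have h1 : w * star w ≤ algebraMap ℝ B κ :=
    (CStarAlgebra.mul_star_le_algebraMap_norm_sq (a := w)).trans
      (algebraMap_mono B hw)
  have h2 : star w * (w * star w) * w ≤ κ • (star w * w) := by
    have := star_left_conjugate_le_conjugate h1 w
    refine this.trans (le_of_eq ?_)
    rw [Algebra.algebraMap_eq_smul_one, mul_smul_comm, mul_one, smul_mul_assoc]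
  have hee : e * e = κ⁻¹ • κ⁻¹ • (star w * (w * star w) * w) := by
    rw [he, smul_mul_smul_comm, smul_smul]
    congr 1
    noncomm_ring
  have h3 : e * e ≤ e := by
    have h4 : κ⁻¹ • κ⁻¹ • (star w * (w * star w) * w) ≤ κ⁻¹ • κ⁻¹ • (κ • (star w * w)) := by
      gcongr
    rw [hee]
    refine h4.trans (le_of_eq ?_)
    rw [smul_smul κ⁻¹ κ, inv_mul_cancel₀ hκ.ne', one_smul]
  have h5 : (1 - e) * (1 - e) ≤ 1 - e := by
    have : (1 - e) * (1 - e) = (1 - e) - (e - e * e) := by noncomm_ring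
    rw [this]
    exact sub_le_self _ (sub_nonneg.2 h3)
  have h6 : star q * ((1 - e) * (1 - e)) * q ≤ star q * (1 - e) * q :=
    star_left_conjugate_le_conjugate h5 q
  have h7 : star ((1 - e) * q) * ((1 - e) * q) = star q * ((1 - e) * (1 - e)) * q := by
    rw [star_mul, star_sub, star_one, hes]
    noncomm_ring
  have h8 : ‖(1 - e) * q‖ ^ 2 = ‖star ((1 - e) * q) * ((1 - e) * q)‖ := by
    rw [CStarRing.norm_star_mul_self, sq]
  rw [h8]
  have h9 : q - κ⁻¹ • (q * (star w * w) * q) = star q * (1 - e) * q := by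
    rw [hq, he, mul_sub, sub_mul, mul_one, hqq, mul_smul_comm, smul_mul_assoc]
  rw [h9]
  refine CStarAlgebra.norm_le_norm_of_nonneg_of_le (star_mul_self_nonneg _) ?_
  rw [h7]
  exact h6

/-- the asymptotic scalar of `z^* z` is a nonnegative real -/
theorem D_nonneg [Nontrivial B] (g : Germ B) (z : B) (d : ℂ)
    (h : ∀ ε > (0 : ℝ), ∃ N : ℕ, ∀ n ≥ N,
      ‖g.p n * (star z * z) * g.p n - d • g.p n‖ ≤ ε) : ∃ r : ℝ, 0 ≤ r ∧ d = (r : ℂ) := by
  let _ := CStarAlgebra.spectralOrder B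
  let _ := CStarAlgebra.spectralOrderedRing B
  have h1 : ∀ ε > (0 : ℝ), ‖d - star d‖ ≤ ε := by
    intro ε hε
    obtain ⟨N, hN⟩ := h (ε / 2) (by positivity)
    have hn := hN N le_rfl
    have hn' : ‖g.p N * (star z * z) * g.p N - (star d) • g.p N‖ ≤ ε / 2 := by
      have e : g.p N * (star z * z) * g.p N - (star d) • g.p N =
          star (g.p N * (star z * z) * g.p N - d • g.p N) := by
        rw [star_sub, star_smul, star_mul, star_mul, star_mul, star_star, g.star_p]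
        rw [mul_assoc (g.p N) (star z * z) (g.p N)]
      rw [e, norm_star]
      exact hn
    have := BasicA_dist g hn hn'
    linarith
  have h2 : d = star d := by
    have : ‖d - star d‖ ≤ 0 := le_of_forall_pos_le_add fun ε hε => by
      rw [zero_add]; exact h1 ε hε
    exact sub_eq_zero.1 (norm_le_zero_iff.1 this)
  obtain ⟨r, hr⟩ : ∃ r : ℝ, (r : ℂ) = d := by
    have := Complex.conj_eq_iff_real.1 (show (starRingEnd ℂ) d = d from h2.symm)
    obtain ⟨r, hr⟩ := this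
    exact ⟨r, hr.symm⟩
  refine ⟨r, ?_, hr.symm⟩
  by_contra hneg
  push Not at hneg
  obtain ⟨N, hN⟩ := h (-r / 2) (by linarith)
  have hn := hN N le_rfl
  have h3 : (0 : B) ≤ (-r) • g.p N := by
    have : (0 : B) ≤ g.p N := by
      have := star_mul_self_nonneg (g.p N)
      rwa [g.star_p, p_idem] at this
    exact smul_nonneg (by linarith) this
  have h4 : (-r) • g.p N ≤ g.p N * (star z * z) * g.p N - d • g.p N := by
    have h5 : g.p N * (star z * z) * g.p N - d • g.p N =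
        g.p N * (star z * z) * g.p N + (-r) • g.p N := by
      rw [← hr, neg_smul, ← sub_eq_add_neg]
      congr 1
    rw [h5]
    have h6 : (0 : B) ≤ g.p N * (star z * z) * g.p N := by
      have := star_left_conjugate_le_conjugate (star_mul_self_nonneg z) (g.p N)
      rwa [g.star_p, mul_zero, zero_mul] at this
    exact le_add_of_nonneg_left h6
  have h7 := CStarAlgebra.norm_le_norm_of_nonneg_of_le h3 h4
  rw [norm_smul, g.norm_p, mul_one, Real.norm_eq_abs, abs_of_pos (by linarith)] at h7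
  linarith

end X


open X in
/-- Rigidity passes along a link. -/
theorem transfer {C C' : StarSubalgebra ℂ B} (hC : C ≤ C') {s t : Germ B} (hsIn : s.In C)
    (htIn : t.In C) (hs : Rigid C s) (ht : Rigid C' t) (hl : Link C s t) : Rigid C' s := by
  rcases subsingleton_or_nontrivial B with hB | hB
  · intro x _
    refine exists_scalar s x fun ε hε => ⟨0, 0, fun n _ => ?_⟩
    rw [Subsingleton.elim (s.p n * x * s.p n - (0 : ℂ) • s.p n) 0, norm_zero]
    exact hε.le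
  obtain ⟨a, ha, δ, hδ, hlow⟩ := hl
  -- the infimum
  set f : ℕ → ℕ → ℝ := fun n m => ‖t.p n * a * s.p m‖ ^ 2 with hf
  have hfanti : ∀ {n n' m m' : ℕ}, n ≤ n' → m ≤ m' → f n' m' ≤ f n m := by
    intro n n' m m' hn hm
    exact pow_le_pow_left₀ (norm_nonneg _) (Germ.norm_anti s t a hn hm) 2
  have hflow : ∀ n m, δ ^ 2 ≤ f n m := fun n m =>
    pow_le_pow_left₀ hδ.le (hlow n m) 2
  set c : ℝ := ⨅ q : ℕ × ℕ, f q.1 q.2 with hc
  have hbdd : BddBelow (Set.range fun q : ℕ × ℕ => f q.1 q.2) :=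
    ⟨δ ^ 2, by rintro _ ⟨q, rfl⟩; exact hflow _ _⟩
  have hcle : ∀ n m, c ≤ f n m := fun n m => ciInf_le hbdd (n, m)
  have hcδ : δ ^ 2 ≤ c := le_ciInf fun q => hflow _ _
  have hδ2 : 0 < δ ^ 2 := by positivity
  have hcpos : 0 < c := lt_of_lt_of_le hδ2 hcδ
  intro x hx
  refine exists_scalar s x fun η hη => ?_
  -- choice of `ε`
  obtain ⟨ε, hε, hε1⟩ : ∃ ε : ℝ, 0 < ε ∧
      2 * ‖x‖ * (Real.sqrt (2 * ε) / δ) + ε / δ ^ 2 ≤ η / 2 := by
    have hcont : Continuous fun ε : ℝ => 2 * ‖x‖ * (Real.sqrt (2 * ε) / δ) + ε / δ ^ 2 := by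
      fun_prop
    have h0 : (fun ε : ℝ => 2 * ‖x‖ * (Real.sqrt (2 * ε) / δ) + ε / δ ^ 2) 0 < η / 2 := by
      simp only [mul_zero, Real.sqrt_zero, zero_div, add_zero]
      positivity
    have h1 : ∀ᶠ ε : ℝ in 𝓝 0, 2 * ‖x‖ * (Real.sqrt (2 * ε) / δ) + ε / δ ^ 2 < η / 2 :=
      hcont.continuousAt.eventually_lt continuousAt_const h0
    obtain ⟨ρ, hρ, hball⟩ := Metric.eventually_nhds_iff.1 h1
    refine ⟨ρ / 2, by positivity, (hball ?_).le⟩
    rw [dist_zero_right, Real.norm_eq_abs, abs_of_pos (by positivity)]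
    linarith
  obtain ⟨⟨n0, m0⟩, hnm⟩ : ∃ q : ℕ × ℕ, f q.1 q.2 < c + ε :=
    exists_lt_of_ciInf_lt (by linarith)
  set κ : ℝ := c + ε with hκ
  have hκpos : 0 < κ := by positivity
  have hκδ : δ ^ 2 ≤ κ := by linarith
  -- the element `y`
  set y : B := a * s.p m0 * x * s.p m0 * star a with hy
  have hyC : y ∈ C' :=
    mul_mem (mul_mem (mul_mem (mul_mem (hC ha) (hC (Germ.p_mem hsIn m0))) hx)
      (hC (Germ.p_mem hsIn m0))) (star_mem (hC ha))
  obtain ⟨μ, hμ⟩ := scalar ht hyC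
  obtain ⟨n1, hn1⟩ := hμ ε hε
  set n := max n0 n1 with hn
  have hμn := hn1 n (le_max_right _ _)
  set P := t.p n with hP
  -- rigidity of `s` at `a^* P a`
  obtain ⟨z, hz⟩ : ∃ z : B, z = P * a := ⟨_, rfl⟩
  obtain ⟨w, hw⟩ : ∃ w : B, w = z * s.p m0 := ⟨_, rfl⟩
  have hwκ : ‖w‖ ^ 2 ≤ κ := by
    rw [hw, hz]
    exact ((hfanti (le_max_left _ _) le_rfl).trans_lt hnm).le
  have hzC : z ∈ C := by
    rw [hz]
    exact mul_mem (Germ.p_mem htIn n) ha
  have hzz : star z * z ∈ C := mul_mem (star_mem hzC) hzC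
  obtain ⟨d, hd⟩ := scalar hs hzz
  obtain ⟨r, hr0, hdr⟩ := D_nonneg s z d hd
  have hnormz : ∀ m, ‖s.p m * (star z * z) * s.p m‖ = f n m := by
    intro m
    have e : s.p m * (star z * z) * s.p m = star (z * s.p m) * (z * s.p m) := by
      rw [star_mul, s.star_p]; noncomm_ring
    rw [e, CStarRing.norm_star_mul_self, hf]
    simp only [sq, hz, hP]
  have hrm : ∀ ε' > (0 : ℝ), ∀ m, ‖s.p m * (star z * z) * s.p m - d • s.p m‖ ≤ ε' →
      |f n m - r| ≤ ε' := by
    intro ε' _ m hm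
    have h1 : ‖d • s.p m‖ = r := by
      rw [norm_smul, s.norm_p, mul_one, hdr, Complex.norm_real, Real.norm_eq_abs,
        abs_of_nonneg hr0]
    have := abs_norm_sub_norm_le (s.p m * (star z * z) * s.p m) (d • s.p m)
    rw [hnormz, h1] at this
    exact this.trans hm
  have hrc : c ≤ r := by
    refine le_of_forall_pos_le_add fun ε' hε' => ?_
    obtain ⟨N, hN⟩ := hd ε' hε'
    have := (abs_le.1 (hrm ε' hε' N (hN N le_rfl))).2
    linarith [hcle n N]
  have hrκ : r ≤ κ := by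
    refine le_of_forall_pos_le_add fun ε' hε' => ?_
    obtain ⟨N, hN⟩ := hd ε' hε'
    have h1 := (abs_le.1 (hrm ε' hε' (max N m0) (hN _ (le_max_left _ _)))).1
    have h2 : f n (max N m0) ≤ κ :=
      ((hfanti (le_max_left _ _) (le_max_right _ _)).trans_lt hnm).le
    linarith
  -- the second error
  obtain ⟨ε', hε', hε'1, hε'2⟩ : ∃ ε' : ℝ, 0 < ε' ∧ ε' ≤ ε ∧ ‖μ‖ * (ε' / κ ^ 2) ≤ η / 2 := by
    refine ⟨min ε ((η / 2) * κ ^ 2 / (‖μ‖ + 1)), by positivity, min_le_left _ _, ?_⟩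
    have h1 : min ε ((η / 2) * κ ^ 2 / (‖μ‖ + 1)) ≤ (η / 2) * κ ^ 2 / (‖μ‖ + 1) :=
      min_le_right _ _
    calc ‖μ‖ * (min ε ((η / 2) * κ ^ 2 / (‖μ‖ + 1)) / κ ^ 2)
        ≤ ‖μ‖ * (((η / 2) * κ ^ 2 / (‖μ‖ + 1)) / κ ^ 2) := by gcongr
      _ = (‖μ‖ / (‖μ‖ + 1)) * (η / 2) := by field_simp
      _ ≤ 1 * (η / 2) := by
          gcongr
          rw [div_le_one (by positivity)]
          linarith [norm_nonneg μ]
      _ = η / 2 := one_mul _
  obtain ⟨m1, hm1⟩ := hd ε' hε'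
  refine ⟨(κ⁻¹ * κ⁻¹ : ℝ) • (μ * d), max m0 m1, fun m hm => ?_⟩
  have hm0 : m0 ≤ m := (le_max_left _ _).trans hm
  have hdm := hm1 m ((le_max_right _ _).trans hm)
  set q := s.p m with hq
  have hqs : star q = q := s.star_p m
  have hqq : q * q = q := p_idem s m
  have hq0 : s.p m0 * q = q := s.p_mul_p_of_le' hm0
  have hq0' : q * s.p m0 = q := s.p_mul_p_of_le hm0
  have hww : q * (star w * w) * q = q * (star z * z) * q := by
    have e1 : w * q = z * q := by rw [hw, mul_assoc, hq0]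
    have e2 : q * star w = q * star z := by
      have := congrArg star e1
      rwa [star_mul w q, star_mul z q, hqs] at this
    calc q * (star w * w) * q = (q * star w) * (w * q) := by noncomm_ring
      _ = (q * star z) * (z * q) := by rw [e1, e2]
      _ = _ := by noncomm_ring
  set e : B := κ⁻¹ • (star w * w) with he
  have hes : star e = e := by rw [he, star_smul, star_mul, star_star]; simp
  have hPP : P * P = P := p_idem t n
  have hPs : star P = P := t.star_p n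
  have hPw : P * w = w := by rw [hw, hz, ← mul_assoc, ← mul_assoc, hPP]
  have hwx : w * x * star w = P * y * P := by
    rw [hw, hz, star_mul, star_mul, hPs, s.star_p, hy]
    noncomm_ring
  -- the norm of `e`
  have hne : ‖e‖ ≤ 1 := by
    rw [he, norm_smul, CStarRing.norm_star_mul_self, Real.norm_eq_abs,
      abs_of_pos (inv_pos.2 hκpos), ← sq]
    calc κ⁻¹ * ‖w‖ ^ 2 ≤ κ⁻¹ * κ := by gcongr
      _ = 1 := inv_mul_cancel₀ hκpos.ne'
  -- `(1 - e) q` is small
  have hD2 : ‖(1 - e) * q‖ ^ 2 ≤ 2 * ε / δ ^ 2 := by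
    refine (D_contr hκpos hwκ hqs hqq).trans ?_
    rw [hww]
    have e1 : q - κ⁻¹ • (q * (star z * z) * q) =
        (1 - κ⁻¹ * r : ℝ) • q - κ⁻¹ • (q * (star z * z) * q - d • q) := by
      rw [smul_sub, sub_smul, one_smul, hdr, Complex.coe_smul, smul_smul]
      abel
    rw [e1]
    refine (norm_sub_le _ _).trans ?_
    rw [norm_smul, norm_smul, s.norm_p, mul_one, Real.norm_eq_abs, Real.norm_eq_abs,
      abs_of_pos (inv_pos.2 hκpos)]
    have h1 : 0 ≤ 1 - κ⁻¹ * r := by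
      rw [sub_nonneg, inv_mul_le_iff₀ hκpos, mul_one]
      exact hrκ
    rw [abs_of_nonneg h1]
    have h2 : κ⁻¹ * ‖q * (star z * z) * q - d • q‖ ≤ κ⁻¹ * ε' := by gcongr
    have h3 : (1 - κ⁻¹ * r) + κ⁻¹ * ε' ≤ κ⁻¹ * (2 * ε) := by
      have : 1 = κ⁻¹ * κ := (inv_mul_cancel₀ hκpos.ne').symm
      rw [this, ← mul_sub, ← mul_add]
      gcongr
      linarith
    have h4 : κ⁻¹ * (2 * ε) ≤ 2 * ε / δ ^ 2 := by
      rw [inv_mul_eq_div]
      gcongr
    linarith
  have hD : ‖(1 - e) * q‖ ≤ Real.sqrt (2 * ε) / δ := by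
    have h1 : ‖(1 - e) * q‖ ≤ Real.sqrt (2 * ε / δ ^ 2) := Real.le_sqrt_of_sq_le hD2
    rwa [Real.sqrt_div' _ (by positivity), Real.sqrt_sq hδ.le] at h1
  -- step 1
  have hs1 : ‖q * x * q - q * e * x * e * q‖ ≤ 2 * ‖x‖ * (Real.sqrt (2 * ε) / δ) := by
    have e1 : q * x * q - q * e * x * e * q =
        star ((1 - e) * q) * x * q + (q * e) * x * ((1 - e) * q) := by
      rw [star_mul, hqs, star_sub, star_one, hes]
      noncomm_ring
    rw [e1]
    have h1 : ‖star ((1 - e) * q) * x * q‖ ≤ (Real.sqrt (2 * ε) / δ) * ‖x‖ := by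
      refine (norm_mul_p_le s _ m).trans ((norm_mul_le _ _).trans ?_)
      rw [norm_star]
      gcongr
    have h2 : ‖(q * e) * x * ((1 - e) * q)‖ ≤ ‖x‖ * (Real.sqrt (2 * ε) / δ) := by
      refine (norm_mul_le _ _).trans ?_
      have h3 : ‖(q * e) * x‖ ≤ ‖x‖ := by
        refine (norm_mul_le _ _).trans ?_
        have h4 : ‖q * e‖ ≤ 1 := (norm_p_mul_le s e m).trans hne
        calc ‖q * e‖ * ‖x‖ ≤ 1 * ‖x‖ := by gcongr
          _ = ‖x‖ := one_mul _
      exact mul_le_mul h3 hD (norm_nonneg _) (norm_nonneg _)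
    refine (norm_add_le _ _).trans ?_
    linarith
  -- step 2
  have hs2 : ‖q * e * x * e * q - (κ⁻¹ * κ⁻¹ : ℝ) • (μ • (q * (star z * z) * q))‖ ≤
      ε / δ ^ 2 := by
    have e1 : q * e * x * e * q - (κ⁻¹ * κ⁻¹ : ℝ) • (μ • (q * (star z * z) * q)) =
        (κ⁻¹ * κ⁻¹ : ℝ) • (q * (star w * (P * y * P - μ • P) * w) * q) := by
      have e2 : q * e * x * e * q = (κ⁻¹ * κ⁻¹ : ℝ) • (q * (star w * (w * x * star w) * w) * q) := by
        rw [he]
        simp only [mul_smul_comm, smul_mul_assoc, smul_smul]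
        congr 1
        noncomm_ring
      have e3 : μ • (q * (star z * z) * q) = q * (star w * (μ • P) * w) * q := by
        rw [← hww]
        simp only [mul_smul_comm, smul_mul_assoc]
        rw [mul_assoc (star w) P w, hPw]
      rw [e2, e3, hwx, ← smul_sub]
      congr 1
      noncomm_ring
    rw [e1, norm_smul, Real.norm_eq_abs, abs_of_pos (by positivity)]
    have h1 : ‖q * (star w * (P * y * P - μ • P) * w) * q‖ ≤ κ * ε := by
      refine (norm_mul_p_le s _ m).trans ((norm_p_mul_le s _ m).trans ?_)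
      calc ‖star w * (P * y * P - μ • P) * w‖ ≤ ‖star w‖ * ‖P * y * P - μ • P‖ * ‖w‖ :=
            (norm_mul_le _ _).trans (mul_le_mul_of_nonneg_right (norm_mul_le _ _) (norm_nonneg _))
        _ ≤ ‖w‖ * ε * ‖w‖ := by rw [norm_star]; gcongr
        _ = ‖w‖ ^ 2 * ε := by ring
        _ ≤ κ * ε := by gcongr
    calc κ⁻¹ * κ⁻¹ * ‖q * (star w * (P * y * P - μ • P) * w) * q‖
        ≤ κ⁻¹ * κ⁻¹ * (κ * ε) := by gcongr
      _ = ε / κ := by field_simp
      _ ≤ ε / δ ^ 2 := by gcongr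
  -- step 3
  have hs3 : ‖(κ⁻¹ * κ⁻¹ : ℝ) • (μ • (q * (star z * z) * q)) -
      (κ⁻¹ * κ⁻¹ : ℝ) • (μ • (d • q))‖ ≤ η / 2 := by
    rw [← smul_sub, ← smul_sub, norm_smul, norm_smul, Real.norm_eq_abs,
      abs_of_pos (by positivity)]
    calc κ⁻¹ * κ⁻¹ * (‖μ‖ * ‖q * (star z * z) * q - d • q‖)
        ≤ κ⁻¹ * κ⁻¹ * (‖μ‖ * ε') := by gcongr
      _ = ‖μ‖ * (ε' / κ ^ 2) := by field_simp
      _ ≤ η / 2 := hε'2
  have e9 : ((κ⁻¹ * κ⁻¹ : ℝ) • (μ * d)) • q = (κ⁻¹ * κ⁻¹ : ℝ) • (μ • (d • q)) := by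
    rw [smul_assoc, mul_smul μ d q]
  rw [e9]
  have e10 : q * x * q - (κ⁻¹ * κ⁻¹ : ℝ) • (μ • (d • q)) =
      (q * x * q - q * e * x * e * q) +
      (q * e * x * e * q - (κ⁻¹ * κ⁻¹ : ℝ) • (μ • (q * (star z * z) * q))) +
      ((κ⁻¹ * κ⁻¹ : ℝ) • (μ • (q * (star z * z) * q)) -
      (κ⁻¹ * κ⁻¹ : ℝ) • (μ • (d • q))) := by abel
  rw [e10]
  refine (norm_add_le _ _).trans ?_
  have := norm_add_le (q * x * q - q * e * x * e * q)
    (q * e * x * e * q - (κ⁻¹ * κ⁻¹ : ℝ) • (μ • (q * (star z * z) * q)))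
  linarith

end

end P070
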