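import Vale.Agent.Lib.P070.Interface
import Vale.Agent.Lib.P070.X.A
import Vale.Agent.Lib.P070.X.Bt
import Vale.Agent.Lib.P070.X.D

/-!
# P070, part X: Lemma X
-/

open Filter Topology

namespace P070

theorem partX : PartX := by
  intro B _ C t v u S
  refine ⟨fun s hs hR => ?_, fun s s' hs _ h1 h2 h3 => stepA_link S hs h1 h2 h3⟩
  by_cases h1 : Link C s t
  · exact transfer (X.le_gen C u) hs S.tIn hR (stepB S) h1
  by_cases h2 : Link C s v
  · exact transfer (X.le_gen C u) hs S.vIn hR (stepC S) h2
  exact stepA_rigid S hs hR h1 h2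

end P070
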